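import Vale.Agent.P181.Poly.Defs
import Vale.Agent.P181.Deep.Map

/-!
The equivariant map from `b` slots of degree `a` to `a` points of degree `b`, and its adjoint.
-/

open MvPolynomial ComplexConjugate

namespace Vale.Agent.P181.Poly

open Deep (pair efac efac_ne_zero slotExps mem_slotExps)

noncomputable section

variable {a b n : ℕ}

/-- Every slot receives a generic combination of the points. -/
def spread (a b n : ℕ) : Pt b n →ₐ[ℂ] MvPolynomial (Fin b × Fin a) (Pt a n) :=
  aeval fun v => ∑ j, X (v.1, j) * C (X (j, v.2))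

/-- All exponents one. -/
def ones (a b : ℕ) : (Fin b × Fin a) →₀ ℕ := Finsupp.equivFunOnFinite.symm fun _ => 1

/-- The map of `Sym^b (Sym^a)` to `Sym^a (Sym^b)`. -/
def slotMap (a b n : ℕ) : Pt b n →ₗ[ℂ] Pt a n :=
  ((lcoeff (Pt a n) (ones a b)).restrictScalars ℂ).comp (spread a b n).toLinearMap

lemma slotMap_apply (G : Pt b n) : slotMap a b n G = coeff (ones a b) (spread a b n G) := rfl

lemma spread_lin (s : Fin b) (u : Fin n → ℂ) :
    spread a b n (lin s u) = ∑ j, monomial (Finsupp.single (s, j) 1) (lin j u : Pt a n) := by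
  have e : ∀ k, u k • (∑ j, X (s, j) * C (X (j, k)) : MvPolynomial (Fin b × Fin a) (Pt a n))
      = ∑ j, monomial (Finsupp.single (s, j) 1) (u k • (X (j, k) : Pt a n)) := by
    intro k
    rw [Finset.smul_sum]
    refine Finset.sum_congr rfl fun j _ => ?_
    rw [X, mul_comm, C_mul_monomial, mul_one, smul_monomial]
  rw [lin_apply, map_sum]
  simp only [map_smul, spread, aeval_X, e]
  rw [Finset.sum_comm]
  refine Finset.sum_congr rfl fun j _ => ?_
  rw [lin_apply, map_sum]

lemma prod_monomial {σ R ι : Type*} [CommSemiring R] (s : Finset ι) (e : ι → σ →₀ ℕ)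
    (c : ι → R) :
    (∏ x ∈ s, monomial (e x) (c x)) = monomial (∑ x ∈ s, e x) (∏ x ∈ s, c x) := by
  classical
  induction s using Finset.induction_on with
  | empty => simp
  | insert x s hx h => simp [Finset.prod_insert hx, Finset.sum_insert hx, h, monomial_mul]

/-- The map at a product of slot products of forms. -/
lemma slotMap_prod (u : Fin b → Fin a → Fin n → ℂ) :
    slotMap a b n (∏ x : Fin b × Fin a, lin x.1 (u x.1 x.2)) = ∏ s, esum (u s) := by
  classical
  simp only [slotMap_apply, map_prod, spread_lin, Fintype.prod_sum, prod_monomial, coeff_sum,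
    coeff_monomial]
  have key : ∀ φ : Fin b × Fin a → Fin a,
      (∑ x : Fin b × Fin a, Finsupp.single (x.1, φ x) 1) = ones a b ↔
        ∀ s, Function.Bijective fun r => φ (s, r) := by
    intro φ
    have he : ∀ s j, (∑ x : Fin b × Fin a, Finsupp.single (x.1, φ x) 1 : _ →₀ ℕ) (s, j)
        = (Finset.univ.filter fun r => φ (s, r) = j).card := by
      intro s j
      rw [Finsupp.finsetSum_apply, Fintype.sum_prod_type, Finset.sum_eq_single s]
      · simp [Finsupp.single_apply]
      · intro t _ ht
        simp [Finsupp.single_apply, ht]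
      · simp
    rw [Finsupp.ext_iff]
    simp only [Prod.forall, he, ones, Finsupp.coe_equivFunOnFinite_symm,
      Function.bijective_iff_existsUnique]
    refine forall_congr' fun s => forall_congr' fun j => ?_
    rw [Finset.card_eq_one]
    constructor
    · rintro ⟨r, hr⟩
      exact ⟨r, (Finset.mem_filter.1 (hr.ge (Finset.mem_singleton_self r))).2, fun r' h' =>
        Finset.mem_singleton.1 (hr.le (Finset.mem_filter.2 ⟨Finset.mem_univ _, h'⟩))⟩
    · rintro ⟨r, hr, hu⟩
      exact ⟨r, Finset.eq_singleton_iff_unique_mem.2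
        ⟨Finset.mem_filter.2 ⟨Finset.mem_univ _, hr⟩,
          fun x hx => hu x (Finset.mem_filter.1 hx).2⟩⟩
  simp only [key, esum]
  rw [Fintype.prod_sum, ← Finset.sum_filter]
  refine Finset.sum_bij' (fun φ hφ s => Equiv.ofBijective _ ((Finset.mem_filter.1 hφ).2 s))
    (fun π _ x => π x.1 x.2) (fun _ _ => Finset.mem_univ _)
    (fun π _ => Finset.mem_filter.2 ⟨Finset.mem_univ _, fun s => (π s).bijective⟩)
    (fun _ _ => rfl) (fun π _ => funext fun s => Equiv.ext fun r => rfl) (fun φ _ => ?_)
  rw [Fintype.prod_prod_type]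
  rfl

lemma elemSpan_pow_le : elemSpan a n ^ b ≤ LinearMap.range (slotMap a b n) := by
  rw [elemSpan, Submodule.span_pow, Submodule.span_le]
  intro g hg
  obtain ⟨f, rfl⟩ := Set.mem_pow.1 hg
  choose u hu using fun s => (f s).2
  refine ⟨∏ x : Fin b × Fin a, lin x.1 (u x.1 x.2), ?_⟩
  rw [slotMap_prod, List.prod_ofFn]
  exact Finset.prod_congr rfl fun s _ => hu s

lemma slotMap_subst {m : ℕ} (M : Matrix (Fin n) (Fin m) ℂ) (G : Pt b n) :
    slotMap a b m (subst b M G) = subst a M (slotMap a b n G) := by
  have h : (spread a b m).comp (subst b M)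
      = (MvPolynomial.mapAlgHom (subst a M)).comp (spread a b n) := by
    refine algHom_ext fun v => ?_
    rw [AlgHom.comp_apply, AlgHom.comp_apply, subst_X, spread_lin]
    simp only [spread, aeval_X, map_sum, map_mul, MvPolynomial.mapAlgHom_apply, map_X, map_C]
    refine Finset.sum_congr rfl fun j _ => ?_
    rw [AlgHom.coe_toRingHom, subst_X, mul_comm, X, C_mul_monomial, mul_one]
  have h' := congrArg (fun φ : Pt b n →ₐ[ℂ] _ => φ G) h
  simp only [AlgHom.comp_apply] at h'
  rw [slotMap_apply, h', slotMap_apply, MvPolynomial.mapAlgHom_apply, coeff_map]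
  rfl

lemma slotMap_rename (e : Equiv.Perm (Fin b)) (G : Pt b n) :
    slotMap a b n (rename (Prod.map e id) G) = slotMap a b n G := by
  have h : (spread a b n).comp (rename (Prod.map e id : Fin b × Fin n → Fin b × Fin n)) =
      ((rename (R := Pt a n)
          (Prod.map e id : Fin b × Fin a → Fin b × Fin a)).restrictScalars ℂ).comp
        (spread a b n) := by
    refine algHom_ext fun v => ?_
    simp [spread, rename_X]
  have h' := congrArg (fun φ : Pt b n →ₐ[ℂ] _ => φ G) h
  simp only [AlgHom.comp_apply, AlgHom.restrictScalars_apply] at h'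
  have ho : ones a b = Finsupp.mapDomain (Prod.map e id) (ones a b) := by
    ext ⟨s, j⟩
    have : ((s, j) : Fin b × Fin a) = Prod.map e id (e.symm s, j) := by simp
    rw [this, Finsupp.mapDomain_apply (e.injective.prodMap Function.injective_id)]
    simp [ones]
  rw [slotMap_apply, h', slotMap_apply]
  conv_lhs => rw [ho]
  rw [coeff_rename_mapDomain _ (e.injective.prodMap Function.injective_id)]

lemma slotMap_monomial_eq_zero {α : (Fin b × Fin n) →₀ ℕ} {c : ℂ} {s : Fin b}
    (h : ∑ k, α (s, k) ≠ a) : slotMap a b n (monomial α c) = 0 := by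
  classical
  let w : Fin b × Fin a → ℕ := fun v => if v.1 = s then 1 else 0
  let w' : Fin b × Fin n → ℕ := fun v => if v.1 = s then 1 else 0
  have hom : IsWeightedHomogeneous w (spread a b n (monomial α c)) (∑ v, α v * w' v) := by
    rw [spread, aeval_monomial, Finsupp.prod_fintype _ _ (by simp)]
    rw [IsScalarTower.algebraMap_apply ℂ (Pt a n) (MvPolynomial (Fin b × Fin a) (Pt a n)),
      algebraMap_eq, show (∑ v, α v * w' v) = 0 + ∑ v, α v * w' v by simp]
    refine (isWeightedHomogeneous_C w _).mul (IsWeightedHomogeneous.prod _ _ _ fun v _ => ?_)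
    have := (IsWeightedHomogeneous.sum (w := w) Finset.univ
      (fun j => X (v.1, j) * C (X (j, v.2) : Pt a n)) (w' v) (fun j _ => by
        have h := (isWeightedHomogeneous_X (Pt a n) w (v.1, j)).mul
          (isWeightedHomogeneous_C w (X (j, v.2) : Pt a n))
        simpa [w, w'] using h)).pow (α v)
    simpa using this
  refine hom.coeff_eq_zero _ ?_
  rw [Finsupp.weight_apply, Finsupp.sum_fintype _ _ (by simp), Fintype.sum_prod_type,
    Finset.sum_eq_single s]
  · have e2 : (∑ v, α v * w' v) = ∑ k, α (s, k) := by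
      rw [Fintype.sum_prod_type, Finset.sum_eq_single s]
      · simp [w']
      · intro x _ hx; simp [w', hx]
      · simp
    rw [e2]
    simpa [w, ones] using Ne.symm h
  · intro x _ hx; simp [w, hx]
  · simp

/-- The adjoint for the apolar pairing. -/
def slotAdj (a b n : ℕ) : Pt a n →ₗ[ℂ] Pt b n :=
  ∑ β ∈ slotExps (Fin b) n a,
    (monomial β).comp ((efac β)⁻¹ • pair (slotMap a b n (monomial β 1)))

lemma coeff_slotAdj (β : (Fin b × Fin n) →₀ ℕ) (f : Pt a n) :
    coeff β (slotAdj a b n f) = (efac β)⁻¹ * pair (slotMap a b n (monomial β 1)) f := by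
  classical
  simp only [slotAdj, LinearMap.sum_apply, LinearMap.comp_apply, LinearMap.smul_apply, smul_eq_mul,
    coeff_sum, coeff_monomial, Finset.sum_ite_eq']
  split_ifs with h
  · rfl
  · rw [mem_slotExps] at h
    push Not at h
    obtain ⟨s, hs⟩ := h
    rw [slotMap_monomial_eq_zero hs, Deep.pair_zero_left, mul_zero]

lemma pair_slotAdj (G : Pt b n) (f : Pt a n) :
    pair G (slotAdj a b n f) = pair (slotMap a b n G) f := by
  induction G using MvPolynomial.induction_on' with
  | add p q hp hq => simp only [map_add, Deep.pair_add_left, hp, hq]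
  | monomial α c =>
    have h : monomial α c = c • monomial α 1 := by simp [smul_monomial]
    rw [h, map_smul, Deep.pair_smul_left, Deep.pair_smul_left, Deep.pair_monomial_left,
      coeff_slotAdj, mul_inv_cancel_left₀ (efac_ne_zero α)]

lemma slotAdj_rename (e : Equiv.Perm (Fin b)) (f : Pt a n) :
    rename (Prod.map e id) (slotAdj a b n f) = slotAdj a b n f := by
  ext β
  have hinj : Function.Injective (Prod.map e id : Fin b × Fin n → Fin b × Fin n) :=
    e.injective.prodMap Function.injective_id
  have h : β = Finsupp.mapDomain (Prod.map e id) (Finsupp.mapDomain (Prod.map e.symm id) β) := by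
    rw [← Finsupp.mapDomain_comp]
    simp [Prod.map_comp_map]
  generalize hγ : Finsupp.mapDomain (Prod.map e.symm id) β = γ at h
  subst h
  rw [coeff_rename_mapDomain _ hinj, coeff_slotAdj, coeff_slotAdj, ← rename_monomial,
    slotMap_rename]
  congr 2
  exact (Deep.efac_mapDomain (e.prodCongr (Equiv.refl (Fin n))) _).symm

lemma slotAdj_degree (f : Pt a n) :
    ∀ α ∈ (slotAdj a b n f).support, ∀ s : Fin b, ∑ k, α (s, k) = a := by
  intro α hα s
  by_contra h
  rw [mem_support_iff, coeff_slotAdj, slotMap_monomial_eq_zero h, Deep.pair_zero_left,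
    mul_zero] at hα
  exact hα rfl

lemma pderiv_subst {m : ℕ} (N : Matrix (Fin n) (Fin m) ℂ) (p : Fin a) (i : Fin m) (f : Pt a n) :
    pderiv (p, i) (subst a N f) = ∑ k, N k i • subst a N (pderiv (p, k) f) := by
  classical
  induction f using MvPolynomial.induction_on with
  | C c => simp [subst]
  | add f g hf hg => simp only [map_add, hf, hg, smul_add, Finset.sum_add_distrib]
  | mul_X f v hf =>
    obtain ⟨q, l⟩ := v
    have hlin : pderiv (p, i) (lin q (N l) : Pt a m) = if q = p then C (N l i) else 0 := by
      rw [lin_apply, map_sum]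
      simp only [Derivation.map_smul, pderiv_X, Pi.single_apply, Prod.mk.injEq]
      by_cases hq : q = p
      · subst hq
        rw [if_pos rfl, Finset.sum_eq_single i]
        · simp [smul_eq_C_mul]
        · intro k _ hk; simp [hk]
        · simp
      · rw [if_neg hq]
        refine Finset.sum_eq_zero fun k _ => ?_
        simp [hq]
    simp only [map_mul, subst_X, pderiv_mul, hf, hlin, pderiv_X, Pi.single_apply, Prod.mk.injEq,
      map_add, smul_add, Finset.sum_add_distrib, Finset.sum_mul, smul_mul_assoc]
    congr 1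
    by_cases hq : q = p
    · subst hq
      rw [if_pos rfl, Finset.sum_eq_single l]
      · simp [smul_eq_C_mul, mul_comm]
      · intro k _ hk; simp [Ne.symm hk]
      · simp
    · rw [if_neg hq, mul_zero, Finset.sum_eq_zero]
      intro k _
      simp [hq]

lemma pair_subst (M : Matrix (Fin n) (Fin n) ℂ) (u f : Pt a n) :
    pair (subst a M u) f = pair u (subst a M.conjTranspose f) := by
  induction u using MvPolynomial.induction_on generalizing f with
  | C c =>
    have h : (C c : Pt a n) = c • monomial 0 1 := by
      rw [smul_monomial, smul_eq_mul, mul_one]; rfl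
    rw [h, map_smul, Deep.pair_smul_left, Deep.pair_smul_left]
    have h1 : subst a M (monomial 0 1 : Pt a n) = monomial 0 1 := by simp
    rw [h1, Deep.pair_monomial_left, Deep.pair_monomial_left]
    have e : constantCoeff.comp (subst a M.conjTranspose).toRingHom
        = (constantCoeff : Pt a n →+* ℂ) := by
      refine MvPolynomial.ringHom_ext (fun r => by simp [subst]) fun v => ?_
      simp [subst, lin_apply]
    congr 2
    exact (congrArg (fun φ : Pt a n →+* ℂ => φ f) e).symm
  | add u v hu hv => simp only [map_add, Deep.pair_add_left, hu, hv]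
  | mul_X u v hu =>
    obtain ⟨p, i⟩ := v
    rw [mul_comm u, map_mul, subst_X, lin_apply, Finset.sum_mul, Deep.pair_sum_left,
      Deep.pair_X_mul_left, pderiv_subst]
    simp only [smul_mul_assoc, Deep.pair_smul_left, Deep.pair_X_mul_left, hu, map_sum, map_smul,
      smul_eq_mul, Matrix.conjTranspose_apply, starRingEnd_apply]

lemma slotAdj_subst (M : Matrix (Fin n) (Fin n) ℂ) (f : Pt a n) :
    slotAdj a b n (subst a M f) = subst b M (slotAdj a b n f) := by
  ext β
  refine mul_left_cancel₀ (efac_ne_zero β) ?_
  rw [← Deep.pair_monomial_left, ← Deep.pair_monomial_left, pair_slotAdj]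
  conv_lhs => rw [show M = M.conjTranspose.conjTranspose from M.conjTranspose_conjTranspose.symm]
  rw [← pair_subst, ← slotMap_subst, ← pair_slotAdj, pair_subst,
    Matrix.conjTranspose_conjTranspose]

end

end Vale.Agent.P181.Poly
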