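import Vale.Agent.P181.Poly.Range
import Vale.Agent.P181.Poly.Adjoint

/-!
An equivariant injection of `Sym^a (Sym^b V)` into `Sym^b (Sym^a V)` for `b ≥ (a - 1)^2`.
-/

open MvPolynomial

namespace Vale.Agent.P181.Poly

noncomputable section

/-- `Sym^m (Sym^d ℂ^n)`: polynomials in `m` points of `ℂ^n`, symmetric under permuting the points
and homogeneous of degree `d` in each point. -/
def SymPow (m d n : ℕ) : Submodule ℂ (MvPolynomial (Fin m × Fin n) ℂ) where
  carrier := {f | (∀ σ : Equiv.Perm (Fin m), rename (Prod.map σ id) f = f) ∧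
    ∀ α ∈ f.support, ∀ p : Fin m, ∑ i, α (p, i) = d}
  zero_mem' := by simp
  add_mem' := by
    classical
    rintro f g ⟨h1, h2⟩ ⟨g1, g2⟩
    refine ⟨fun σ => by simp [h1, g1], fun α hα => ?_⟩
    rcases Finset.mem_union.1 (support_add hα) with h | h
    exacts [h2 α h, g2 α h]
  smul_mem' := by
    rintro c f ⟨h1, h2⟩
    exact ⟨fun σ => by simp [h1], fun α hα => h2 α (support_smul hα)⟩

/-- Foulkes' inclusion for `b ≥ (a - 1)^2`. -/
theorem exists_equivariant_injection (a b n : ℕ) (hb : (a - 1) ^ 2 ≤ b) :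
    ∃ Φ : MvPolynomial (Fin a × Fin n) ℂ →ₗ[ℂ] MvPolynomial (Fin b × Fin n) ℂ,
      (∀ f ∈ SymPow a b n, Φ f ∈ SymPow b a n) ∧
      (∀ f ∈ SymPow a b n, Φ f = 0 → f = 0) ∧
      ∀ (M : Matrix (Fin n) (Fin n) ℂ) (f : MvPolynomial (Fin a × Fin n) ℂ),
        Φ (aeval (fun v : Fin a × Fin n => ∑ k, M v.2 k • X (v.1, k)) f) =
          aeval (fun v : Fin b × Fin n => ∑ k, M v.2 k • X (v.1, k)) (Φ f) := by
  refine ⟨slotAdj a b n, fun f _ => ⟨fun σ => slotAdj_rename σ f, slotAdj_degree f⟩,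
    fun f hf h0 => ?_, fun M f => ?_⟩
  · obtain ⟨G, hG⟩ := elemSpan_pow_le (mem_elemSpan_pow hb hf.1 hf.2)
    refine Deep.eq_zero_of_pair_self ?_
    conv_lhs => arg 1; rw [← hG]
    rw [← pair_slotAdj, h0, map_zero]
  · have e : ∀ c : ℕ, (aeval fun v : Fin c × Fin n =>
        ∑ k, M v.2 k • (X (v.1, k) : Pt c n)) =
        subst c M := fun c => by
      simp only [subst, lin_apply]
    rw [e, e]
    exact slotAdj_subst M f

end

end Vale.Agent.P181.Poly
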