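import Mathlib

/-!
Polynomials of `a` points of a vector space: linear forms, multilinear symmetric sums,
symmetrisation and substitution.
-/

open MvPolynomial

namespace Vale.Agent.P181.Poly

noncomputable section

variable {a n : ℕ}

/-- Polynomials in the coordinates of `a` points of `ℂ^n`. -/
abbrev Pt (a n : ℕ) := MvPolynomial (Fin a × Fin n) ℂ

/-- The linear form `u` at the point `j`. -/
def lin (j : Fin a) : (Fin n → ℂ) →ₗ[ℂ] Pt a n :=
  Fintype.linearCombination ℂ fun k => X (j, k)

lemma lin_apply (j : Fin a) (u : Fin n → ℂ) : lin j u = ∑ k, u k • X (j, k) := by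
  simp [lin, Fintype.linearCombination_apply]

lemma lin_single (j : Fin a) (k : Fin n) : lin j (Pi.single k 1) = X (j, k) := by
  classical
  simp [lin_apply, Pi.single_apply, ite_smul]

/-- The product of one form over all points. -/
def prodForm (u : Fin n → ℂ) : Pt a n := ∏ j, lin j u

/-- The multilinear symmetric sum of `a` forms. -/
def esum (u : Fin a → Fin n → ℂ) : Pt a n :=
  ∑ σ : Equiv.Perm (Fin a), ∏ i, lin (σ i) (u i)

/-- The span of the multilinear symmetric sums. -/
def elemSpan (a n : ℕ) : Submodule ℂ (Pt a n) := Submodule.span ℂ (Set.range esum)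

/-- Degree one at the point `j`. -/
def lineSpace (n : ℕ) (j : Fin a) : Submodule ℂ (Pt a n) :=
  Submodule.span ℂ (Set.range (lin j))

/-- Degree `b` at every point. -/
def degSpace (a n b : ℕ) : Submodule ℂ (Pt a n) := ∏ j, lineSpace n j ^ b

/-- Symmetrisation over the points. -/
def symm (a n : ℕ) : Pt a n →ₗ[ℂ] Pt a n :=
  ∑ σ : Equiv.Perm (Fin a), (rename (Prod.map σ id)).toLinearMap

lemma symm_apply (f : Pt a n) : symm a n f = ∑ σ : Equiv.Perm (Fin a),
    rename (Prod.map σ id) f := by
  simp [symm]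

lemma rename_lin (σ : Equiv.Perm (Fin a)) (j : Fin a) (u : Fin n → ℂ) :
    rename (Prod.map σ id) (lin j u) = lin (σ j) u := by
  simp [lin_apply, map_sum, map_smul]

lemma rename_prodForm (σ : Equiv.Perm (Fin a)) (u : Fin n → ℂ) :
    rename (Prod.map σ id) (prodForm (a := a) u) = prodForm u := by
  simp only [prodForm, map_prod, rename_lin]
  exact Equiv.prod_comp σ fun j => lin j u

lemma symm_mul_left {p : Pt a n} (hp : ∀ σ : Equiv.Perm (Fin a), rename (Prod.map σ id) p = p)
    (f : Pt a n) : symm a n (p * f) = p * symm a n f := by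
  simp only [symm_apply, map_mul, hp, Finset.mul_sum]

lemma prodForm_mem (u : Fin n → ℂ) : prodForm u ∈ elemSpan a n := by
  have h : esum (fun _ : Fin a => u) =
      (Fintype.card (Equiv.Perm (Fin a)) : ℂ) • prodForm u := by
    simp only [esum, prodForm, Equiv.prod_comp _ fun j => lin j u, Finset.sum_const,
      Finset.card_univ, Nat.cast_smul_eq_nsmul]
  have hc : (Fintype.card (Equiv.Perm (Fin a)) : ℂ) ≠ 0 :=
    Nat.cast_ne_zero.2 Fintype.card_ne_zero
  refine (Submodule.smul_mem_iff _ hc).1 ?_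
  rw [← h]
  exact Submodule.subset_span ⟨_, rfl⟩

/-- Substitution of linear forms in the coordinates of every point. -/
def subst {n m : ℕ} (a : ℕ) (M : Matrix (Fin n) (Fin m) ℂ) : Pt a n →ₐ[ℂ] Pt a m :=
  aeval fun v => lin v.1 (M v.2)

lemma subst_X {m : ℕ} (M : Matrix (Fin n) (Fin m) ℂ) (v : Fin a × Fin n) :
    subst a M (X v) = lin v.1 (M v.2) := by simp [subst]

lemma subst_lin {m : ℕ} (M : Matrix (Fin n) (Fin m) ℂ) (j : Fin a) (u : Fin n → ℂ) :
    subst a M (lin j u) = lin j (Matrix.vecMul u M) := by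
  rw [lin_apply, map_sum]
  simp only [map_smul, subst_X]
  have h : Matrix.vecMul u M = ∑ k, u k • M k := by
    funext i
    simp [Matrix.vecMul, dotProduct]
  rw [h, map_sum]
  simp only [map_smul]

lemma subst_esum {m : ℕ} (M : Matrix (Fin n) (Fin m) ℂ) (u : Fin a → Fin n → ℂ) :
    subst a M (esum u) = esum fun i => Matrix.vecMul (u i) M := by
  simp [esum, map_sum, map_prod, subst_lin]

lemma prod_mem_prod {ι A : Type*} [CommRing A] [Algebra ℂ A] (s : Finset ι)
    (G : ι → Submodule ℂ A) (x : ι → A) (h : ∀ i ∈ s, x i ∈ G i) :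
    ∏ i ∈ s, x i ∈ ∏ i ∈ s, G i := by
  classical
  induction s using Finset.induction_on with
  | empty => simpa using Submodule.mem_one.2 ⟨1, map_one _⟩
  | insert i s hi ih =>
    rw [Finset.prod_insert hi, Finset.prod_insert hi]
    exact Submodule.mul_mem_mul (h i (by simp)) (ih fun j hj => h j (by simp [hj]))

lemma prod_mem_pow {ι A : Type*} [CommRing A] [Algebra ℂ A] (s : Finset ι)
    (G : Submodule ℂ A) (x : ι → A) (h : ∀ i ∈ s, x i ∈ G) :
    ∏ i ∈ s, x i ∈ G ^ s.card := by
  rw [← Finset.prod_const]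
  exact prod_mem_prod s (fun _ => G) x h

/-- Every polynomial of degree `b` at each point lies in `degSpace`. -/
lemma mem_degSpace {b : ℕ} {f : Pt a n} (hf : ∀ α ∈ f.support, ∀ j, ∑ k, α (j, k) = b) :
    f ∈ degSpace a n b := by
  rw [f.as_sum]
  refine Submodule.sum_mem _ fun α hα => ?_
  rw [show monomial α (coeff α f) = coeff α f • monomial α 1 by simp [smul_monomial]]
  refine Submodule.smul_mem _ _ ?_
  rw [monomial_eq, Finsupp.prod_fintype _ _ (by simp), Fintype.prod_prod_type, map_one, one_mul]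
  refine prod_mem_prod _ _ _ fun j _ => ?_
  rw [← hf α hα j, ← Finset.prod_pow_eq_pow_sum]
  refine prod_mem_prod _ _ _ fun k _ => Submodule.pow_mem_pow _ ?_ _
  exact Submodule.subset_span ⟨_, lin_single j k⟩

end

end Vale.Agent.P181.Poly
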