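import Vale.Agent.P181.Poly.Defs

/-!
Peeling one point off a symmetrised polynomial, and exchanging powers of products of one form.
-/

open MvPolynomial

namespace Vale.Agent.P181.Poly

noncomputable section

variable {a n : ℕ}

section Generic

variable {A : Type*} [CommRing A] [Algebra ℂ A]

/-- Coefficients lie in every subspace that contains all values at scalars. -/
lemma coeff_mem_of_eval_mem (G : Submodule ℂ A) (P : Polynomial A)
    (h : ∀ t : ℂ, P.eval (algebraMap ℂ A t) ∈ G) (p : ℕ) : P.coeff p ∈ G := by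
  by_contra hno
  obtain ⟨φ, hφ, hker⟩ := Submodule.exists_dual_map_eq_bot_of_notMem hno inferInstance
  let q : Polynomial ℂ := ∑ i ∈ Finset.range (P.natDegree + 1),
    Polynomial.C (φ (P.coeff i)) * Polynomial.X ^ i
  have h0 : q = 0 := Polynomial.funext fun t => by
    have h1 : φ (P.eval (algebraMap ℂ A t)) ∈ G.map φ := Submodule.mem_map_of_mem (h t)
    rw [hker, Submodule.mem_bot, Polynomial.eval_eq_sum_range, map_sum] at h1
    rw [Polynomial.eval_zero, ← h1]
    simp only [q, Polynomial.eval_finsetSum, Polynomial.eval_mul, Polynomial.eval_C,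
      Polynomial.eval_pow, Polynomial.eval_X]
    refine Finset.sum_congr rfl fun i _ => ?_
    rw [← map_pow, mul_comm (P.coeff i), ← Algebra.smul_def, map_smul, smul_eq_mul, mul_comm]
  have h2 : q.coeff p = φ (P.coeff p) := by
    simp only [q, Polynomial.finsetSum_coeff, Polynomial.coeff_C_mul_X_pow, Finset.sum_ite_eq,
      Finset.mem_range]
    split_ifs with hp
    · rfl
    · rw [Polynomial.coeff_eq_zero_of_natDegree_lt (by omega), map_zero]
  rw [h0, Polynomial.coeff_zero] at h2
  exact hφ h2.symm

lemma coeff_mul_mem {M N : Submodule ℂ A} {P Q : Polynomial A} (hP : ∀ p, P.coeff p ∈ M)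
    (hQ : ∀ p, Q.coeff p ∈ N) (p : ℕ) : (P * Q).coeff p ∈ M * N := by
  rw [Polynomial.coeff_mul]
  exact Submodule.sum_mem _ fun x _ => Submodule.mul_mem_mul (hP _) (hQ _)

lemma coeff_pow_mem {M : Submodule ℂ A} {P : Polynomial A} (hP : ∀ p, P.coeff p ∈ M) :
    ∀ (s : ℕ) (p : ℕ), (P ^ s).coeff p ∈ M ^ s
  | 0, p => by
    rw [pow_zero, pow_zero, Polynomial.coeff_one]
    split_ifs
    · exact Submodule.mem_one.2 ⟨1, map_one _⟩
    · exact Submodule.zero_mem _
  | s + 1, p => by
    rw [pow_succ, pow_succ]
    exact coeff_mul_mem (coeff_pow_mem hP s) hP p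

/-- A power of a space of forms is spanned by powers. -/
lemma span_range_pow_le {V : Type*} [AddCommGroup V] [Module ℂ V] (L : V →ₗ[ℂ] A) : ∀ m : ℕ,
    Submodule.span ℂ (Set.range L) ^ m ≤ Submodule.span ℂ (Set.range fun v => L v ^ m)
  | 0 => by
    rw [pow_zero, Submodule.one_eq_span, Submodule.span_le]
    rintro _ rfl
    exact Submodule.subset_span ⟨0, by simp⟩
  | m + 1 => by
    rw [pow_succ]
    refine (mul_le_mul_left (span_range_pow_le L m) _).trans ?_
    rw [Submodule.span_mul_span, Submodule.span_le]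
    rintro _ ⟨_, ⟨x, rfl⟩, _, ⟨y, rfl⟩, rfl⟩
    have h := coeff_mem_of_eval_mem (Submodule.span ℂ (Set.range fun v => L v ^ (m + 1)))
      ((Polynomial.C (L x) + Polynomial.X * Polynomial.C (L y)) ^ (m + 1)) (fun t => by
        refine Submodule.subset_span ⟨x + t • y, ?_⟩
        simp [Algebra.smul_def]
        ring) 1
    have hd : Polynomial.derivative
        ((Polynomial.C (L x) + Polynomial.X * Polynomial.C (L y)) ^ (m + 1))
        = Polynomial.C ((m + 1 : ℕ) : A) *
          (Polynomial.C (L x) + Polynomial.X * Polynomial.C (L y)) ^ m * Polynomial.C (L y) := by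
      simp [Polynomial.derivative_pow]
    have hc := Polynomial.coeff_derivative
      ((Polynomial.C (L x) + Polynomial.X * Polynomial.C (L y)) ^ (m + 1)) 0
    rw [hd, Nat.cast_zero, zero_add, zero_add, mul_one] at hc
    rw [← hc] at h
    simp only [Polynomial.coeff_zero_eq_eval_zero, Polynomial.eval_mul, Polynomial.eval_pow,
      Polynomial.eval_add, Polynomial.eval_C, Polynomial.eval_X, zero_mul, add_zero] at h
    rw [mul_assoc, ← map_natCast (algebraMap ℂ A) (m + 1), ← Algebra.smul_def] at h
    exact (Submodule.smul_mem_iff _ (Nat.cast_ne_zero.2 (Nat.succ_ne_zero m))).1 h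

lemma map_prod_submodule {B : Type*} [CommRing B] [Algebra ℂ B] {ι : Type*} (s : Finset ι)
    (G : ι → Submodule ℂ A) (f : A →ₐ[ℂ] B) :
    (∏ i ∈ s, G i).map f.toLinearMap = ∏ i ∈ s, (G i).map f.toLinearMap := by
  classical
  induction s using Finset.induction_on with
  | empty => simp [Submodule.map_one]
  | insert i s hi ih =>
    rw [Finset.prod_insert hi, Finset.prod_insert hi, Submodule.map_mul, ih]

end Generic

/-- A linear form at a single point. -/
def lf : (Fin n → ℂ) →ₗ[ℂ] MvPolynomial (Fin n) ℂ :=
  Fintype.linearCombination ℂ fun k => X k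

/-- Forms of degree `d` at a single point. -/
def formSpace (n d : ℕ) : Submodule ℂ (MvPolynomial (Fin n) ℂ) :=
  Submodule.span ℂ (Set.range (lf (n := n))) ^ d

/-- A form read at the point `i`. -/
def atPt (i : Fin a) : MvPolynomial (Fin n) ℂ →ₐ[ℂ] Pt a n := rename fun k => (i, k)

/-- Polynomials of `a` points, read off the points other than `i`. -/
def skip (i : Fin (a + 1)) : Pt a n →ₐ[ℂ] Pt (a + 1) n := rename (Prod.map i.succAbove id)

/-- The sum over the point at which the form is placed. -/
def peel : MvPolynomial (Fin n) ℂ →ₗ[ℂ] Pt a n →ₗ[ℂ] Pt (a + 1) n :=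
  ∑ i : Fin (a + 1), (LinearMap.mul ℂ (Pt (a + 1) n)).compl₁₂ (atPt i).toLinearMap
    (skip i).toLinearMap

lemma peel_apply (h : MvPolynomial (Fin n) ℂ) (g : Pt a n) :
    peel h g = ∑ i, atPt i h * skip i g := by
  simp [peel]

lemma atPt_lf (i : Fin a) (u : Fin n → ℂ) : atPt i (lf u) = lin i u := by
  simp [atPt, lf, Fintype.linearCombination_apply, lin_apply, map_sum]

lemma skip_lin (i : Fin (a + 1)) (j : Fin a) (u : Fin n → ℂ) :
    skip i (lin j u) = lin (i.succAbove j) u := by
  simp [skip, lin_apply, map_sum]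

lemma skip_prodForm (i : Fin (a + 1)) (u : Fin n → ℂ) :
    skip i (prodForm u) = ∏ j, lin (i.succAbove j) u := by
  simp [prodForm, map_prod, skip_lin]

lemma map_atPt_formSpace (i : Fin a) (d : ℕ) :
    (formSpace n d).map (atPt i).toLinearMap = lineSpace n i ^ d := by
  rw [formSpace, Submodule.map_pow, Submodule.map_span, lineSpace, ← Set.range_comp,
    show (atPt i).toLinearMap ∘ lf (n := n) = lin i from funext (atPt_lf i)]

lemma degSpace_succ (a n b : ℕ) : degSpace (a + 1) n b =
    (formSpace n b).map (atPt 0).toLinearMap * (degSpace a n b).map (skip 0).toLinearMap := by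
  rw [degSpace, Fin.prod_univ_succ, map_atPt_formSpace, degSpace, map_prod_submodule]
  congr 1
  refine Finset.prod_congr rfl fun j _ => ?_
  rw [Submodule.map_pow, lineSpace, lineSpace, Submodule.map_span, ← Set.range_comp,
    show (skip 0).toLinearMap ∘ lin j = lin (n := n) j.succ from
      funext fun u => (skip_lin 0 j u).trans (by rw [Fin.zero_succAbove])]

lemma symm_peel (h : MvPolynomial (Fin n) ℂ) (g : Pt a n) :
    symm (a + 1) n (atPt 0 h * skip 0 g) = peel h (symm a n g) := by
  let E : Fin (a + 1) × Equiv.Perm (Fin a) → Equiv.Perm (Fin (a + 1)) := fun x =>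
    (finSuccEquiv' 0).trans ((x.2.optionCongr).trans (finSuccEquiv' x.1).symm)
  have e0 : ∀ x, E x 0 = x.1 := fun x => by simp [E]
  have es : ∀ x j, E x (Fin.succ j) = x.1.succAbove (x.2 j) := fun x j => by
    rw [← Fin.zero_succAbove]
    simp only [E, Equiv.trans_apply, finSuccEquiv'_succAbove, Equiv.optionCongr_apply,
      Option.map_some, finSuccEquiv'_symm_some]
  have hinj : Function.Injective E := by
    intro x y hxy
    have h1 : x.1 = y.1 := by rw [← e0 x, hxy, e0]
    refine Prod.ext h1 (Equiv.ext fun j => ?_)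
    have h2 := es x j
    rw [hxy, es, ← h1] at h2
    exact (Fin.succAbove_right_injective h2).symm
  have hbij : Function.Bijective E := (Fintype.bijective_iff_injective_and_card E).2
    ⟨hinj, by simp [Fintype.card_perm, Nat.factorial_succ]⟩
  simp only [symm_apply, peel_apply, map_sum]
  rw [Finset.sum_comm (γ := Equiv.Perm (Fin a)), ← Finset.sum_product',
    Finset.univ_product_univ]
  refine (Fintype.sum_bijective E hbij _ _ fun x => ?_).symm
  simp only [map_mul, atPt, skip, rename_rename]
  congr 2

/-- Products of one form, raised to the power `k`. -/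
def powSpan (a n k : ℕ) : Submodule ℂ (Pt a n) :=
  Submodule.span ℂ (Set.range fun v : Fin n → ℂ => prodForm v ^ k)

/-- At every point, a power `m ≥ k (a + 1)` against the `k`-th power of the product of one form
over the other points splits off the same elements. -/
lemma peel_split {k m : ℕ} (hm : k * (a + 1) ≤ m) (u w : Fin n → ℂ) :
    ∃ (c : ℕ × ℕ → Pt (a + 1) n) (h : ℕ × ℕ → MvPolynomial (Fin n) ℂ),
      (∀ x, c x ∈ powSpan (a + 1) n k) ∧ (∀ x, h x ∈ formSpace n (m - k)) ∧
      ∀ i, atPt i (lf u ^ m) * skip i (prodForm w ^ k) =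
        ∑ x ∈ Finset.HasAntidiagonal.antidiagonal m, c x * atPt i (h x) := by
  open Polynomial in
  let Q : Polynomial (Pt (a + 1) n) :=
    ∏ j, (Polynomial.C (lin j w) + Polynomial.X * Polynomial.C (lin j u))
  let H : Polynomial (MvPolynomial (Fin n) ℂ) := ∑ s ∈ Finset.range (m - k + 1),
    (Polynomial.C (lf w) + Polynomial.X * Polynomial.C (lf u)) ^ s *
      Polynomial.C (-lf w) ^ (m - k - s) * ((m.choose (k + s) : ℕ) : Polynomial _)
  have hH : ∀ q, H.coeff q ∈ formSpace n (m - k) := by
    intro q
    simp only [H, Polynomial.finsetSum_coeff, Polynomial.coeff_mul_natCast]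
    refine Submodule.sum_mem _ fun s hs => ?_
    rw [← nsmul_eq_mul', formSpace,
      show m - k = s + (m - k - s) by have := Finset.mem_range.1 hs; omega, pow_add,
      Nat.add_sub_cancel_left]
    refine Submodule.smul_of_tower_mem _ _
      (coeff_mul_mem (coeff_pow_mem (fun p => ?_) _) (coeff_pow_mem (fun p => ?_) _) q)
    · rcases p with _ | _ | p <;> simp [Polynomial.coeff_C]
      · exact Submodule.subset_span ⟨w, rfl⟩
      · exact Submodule.subset_span ⟨u, rfl⟩
    · rw [Polynomial.coeff_C]
      split_ifs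
      · exact Submodule.neg_mem _ (Submodule.subset_span ⟨w, rfl⟩)
      · exact Submodule.zero_mem _
  have hQ : ∀ p, (Q ^ k).coeff p ∈ powSpan (a + 1) n k :=
    coeff_mem_of_eval_mem _ _ fun t => by
      refine Submodule.subset_span ⟨w + t • u, ?_⟩
      simp only [Q, prodForm, Polynomial.eval_pow, Polynomial.eval_prod, map_add, map_smul]
      congr! 2 with j
      simp [Algebra.smul_def]
      ring
  have key : ∀ i : Fin (a + 1),
      atPt i (lf u ^ m) * skip i (prodForm w ^ k) =
        ∑ x ∈ Finset.HasAntidiagonal.antidiagonal m,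
          (Q ^ k).coeff x.1 * atPt i (H.coeff x.2) := by
    intro i
    let F : Polynomial (Pt (a + 1) n) :=
      Polynomial.C (lin i w) + Polynomial.X * Polynomial.C (lin i u)
    let O : Polynomial (Pt (a + 1) n) := ∏ j, (Polynomial.C (lin (i.succAbove j) w)
      + Polynomial.X * Polynomial.C (lin (i.succAbove j) u))
    have hQF : Q = F * O := Fin.prod_univ_succAbove _ i
    have hO : O.natDegree ≤ a := by
      refine (Polynomial.natDegree_prod_le _ _).trans ?_
      refine (Finset.sum_le_card_nsmul _ _ 1 fun j _ => ?_).trans (by simp)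
      compute_degree!
    have hF : F.natDegree ≤ 1 := by simp only [F]; compute_degree!
    have hmap : H.map (atPt i).toRingHom = ∑ s ∈ Finset.range (m - k + 1),
        F ^ s * Polynomial.C (-lin i w) ^ (m - k - s)
          * ((m.choose (k + s) : ℕ) : Polynomial _) := by
      simp [H, F, Polynomial.map_sum, atPt_lf]
    have hlhs : atPt i (lf u ^ m) * skip i (prodForm w ^ k) =
        ((Polynomial.X * Polynomial.C (lin i u)) ^ m * O ^ k).coeff m := by
      rw [mul_pow, ← Polynomial.C_pow, mul_assoc, Polynomial.coeff_X_pow_mul',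
        if_pos le_rfl, Nat.sub_self, Polynomial.coeff_zero_eq_eval_zero]
      simp [O, map_pow, atPt_lf, skip_prodForm, Polynomial.eval_prod]
    have hy : (Polynomial.X * Polynomial.C (lin i u) : Polynomial (Pt (a + 1) n)) =
        F + Polynomial.C (-lin i w) := by simp [F]
    have hsplit : m + 1 = k + (m - k + 1) := by
      have : k ≤ m := le_trans (Nat.le_mul_of_pos_right k (Nat.succ_pos a)) hm
      omega
    have hlow : ∀ t ∈ Finset.range k, (F ^ t * Polynomial.C (-lin i w) ^ (m - t) *
        ((m.choose t : ℕ) : Polynomial _) * O ^ k).coeff m = 0 := by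
      intro t ht
      refine Polynomial.coeff_eq_zero_of_natDegree_lt (lt_of_le_of_lt ?_ (lt_of_lt_of_le
        (Nat.add_lt_add_right (Finset.mem_range.1 ht) (k * a)) (by linarith)))
      exact (Polynomial.natDegree_mul_le_of_le (Polynomial.natDegree_mul_le_of_le
        (Polynomial.natDegree_mul_le_of_le (Polynomial.natDegree_pow_le_of_le _ hF)
          (Polynomial.natDegree_pow_le_of_le (m := 0) _ (Polynomial.natDegree_C _).le))
        (Polynomial.natDegree_natCast _).le)
        (Polynomial.natDegree_pow_le_of_le _ hO)).trans (le_of_eq (by simp))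
    rw [hlhs, hy, add_pow, hsplit, Finset.sum_range_add, add_mul, Polynomial.coeff_add,
      Finset.sum_mul, Polynomial.finsetSum_coeff, Finset.sum_eq_zero hlow, zero_add]
    have hhigh : (∑ s ∈ Finset.range (m - k + 1), F ^ (k + s) *
        Polynomial.C (-lin i w) ^ (m - (k + s)) * ((m.choose (k + s) : ℕ) : Polynomial _))
          * O ^ k = Q ^ k * H.map (atPt i).toRingHom := by
      rw [hmap, hQF, mul_pow, Finset.sum_mul, Finset.mul_sum]
      refine Finset.sum_congr rfl fun s _ => ?_
      rw [pow_add, Nat.sub_add_eq]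
      ring
    rw [hhigh, Polynomial.coeff_mul]
    simp only [Polynomial.coeff_map]
    rfl
  exact ⟨fun x => (Q ^ k).coeff x.1, fun x => H.coeff x.2, fun x => hQ _, fun x => hH _, key⟩

/-- A form of degree `m ≥ k (a + 1)` against the `k`-th power of a product of one form. -/
lemma peel_step {k m : ℕ} (hm : k * (a + 1) ≤ m) (u w : Fin n → ℂ) (g : Pt a n) :
    peel (lf u ^ m) (prodForm w ^ k * g) ∈
      powSpan (a + 1) n k * (formSpace n (m - k)).map (peel.flip g) := by
  obtain ⟨c, h, hc, hh, key⟩ := peel_split hm u w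
  have e : peel (lf u ^ m) (prodForm w ^ k * g) =
      ∑ x ∈ Finset.HasAntidiagonal.antidiagonal m, c x * peel (h x) g := by
    simp only [peel_apply, map_mul, ← mul_assoc, key, Finset.mul_sum, Finset.sum_mul]
    exact Finset.sum_comm
  rw [e]
  exact Submodule.sum_mem _ fun x _ => Submodule.mul_mem_mul (hc _) ⟨_, hh _, rfl⟩

end

end Vale.Agent.P181.Poly
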