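import Vale.Agent.P181.Poly.Peel

/-!
Symmetric polynomials of `a` points of degree `b ≥ (a - 1)^2` at each point are combinations of
products of `b` products of one form over the points.
-/

open MvPolynomial

namespace Vale.Agent.P181.Poly

noncomputable section

variable {a n : ℕ}

/-- The symmetrised polynomials of degree `b` at each point. -/
def symImage (a n b : ℕ) : Submodule ℂ (Pt a n) := (degSpace a n b).map (symm a n)

lemma symImage_zero (n b : ℕ) : symImage 0 n b = 1 := by
  rw [symImage, degSpace, Finset.univ_eq_empty, Finset.prod_empty, Submodule.one_eq_span,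
    Submodule.map_span, Set.image_singleton, symm_apply]
  simp

lemma one_le_powSpan (n k : ℕ) : (1 : Submodule ℂ (Pt 0 n)) ≤ powSpan 0 n k := by
  rw [Submodule.one_eq_span, Submodule.span_le, Set.singleton_subset_iff]
  exact Submodule.subset_span ⟨0, by simp [prodForm]⟩

/-- To bound the symmetrised polynomials of one more point, peel off a power. -/
lemma symImage_succ_le {b : ℕ} (G : Submodule ℂ (Pt (a + 1) n))
    (h : ∀ u : Fin n → ℂ, ∀ g ∈ symImage a n b, peel (lf u ^ b) g ∈ G) :
    symImage (a + 1) n b ≤ G := by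
  rw [symImage, Submodule.map_le_iff_le_comap, degSpace_succ, Submodule.mul_le]
  rintro _ ⟨p, hp, rfl⟩ _ ⟨q, hq, rfl⟩
  rw [Submodule.mem_comap, AlgHom.toLinearMap_apply, AlgHom.toLinearMap_apply, symm_peel]
  have hp' := span_range_pow_le lf b hp
  clear hp
  induction hp' using Submodule.span_induction with
  | mem x hx =>
    obtain ⟨u, rfl⟩ := hx
    exact h u _ ⟨q, hq, rfl⟩
  | zero => simp
  | add x y _ _ hx hy => rw [map_add, LinearMap.add_apply]; exact Submodule.add_mem _ hx hy
  | smul c x _ hx => rw [map_smul, LinearMap.smul_apply]; exact Submodule.smul_mem _ _ hx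

lemma map_peel_le {b : ℕ} {g : Pt a n} (hg : g ∈ symImage a n b) :
    (formSpace n b).map (peel.flip g) ≤ symImage (a + 1) n b := by
  obtain ⟨y, hy, rfl⟩ := hg
  rintro _ ⟨p, hp, rfl⟩
  refine ⟨atPt 0 p * skip 0 y, ?_, ?_⟩
  · rw [degSpace_succ]
    exact Submodule.mul_mem_mul ⟨p, hp, rfl⟩ ⟨y, hy, rfl⟩
  · exact symm_peel p y

/-- For `b ≥ k a` every product of one form to the power `k` can be split off. -/
lemma symImage_le_powSpan (k : ℕ) : ∀ (a b : ℕ), k * a ≤ b →
    symImage a n b ≤ powSpan a n k * symImage a n (b - k)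
  | 0, b, _ => by
    rw [symImage_zero, symImage_zero, mul_one]
    exact one_le_powSpan n k
  | a + 1, b, hb => by
    refine symImage_succ_le _ fun u g hg => ?_
    have hka : k * a ≤ b := le_trans (Nat.mul_le_mul_left k (Nat.le_succ a)) hb
    have hle : powSpan a n k * symImage a n (b - k) ≤ Submodule.comap (peel (lf u ^ b))
        (powSpan (a + 1) n k * symImage (a + 1) n (b - k)) := by
      rw [powSpan, ← Submodule.span_eq (symImage a n (b - k)), Submodule.span_mul_span,
        Submodule.span_le]
      rintro _ ⟨_, ⟨w, rfl⟩, q, hq, rfl⟩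
      exact mul_le_mul_right (map_peel_le hq) _ (peel_step hb u w q)
    exact hle (symImage_le_powSpan k a b hka hg)

lemma coeff_one_prod (A B : Fin (a + 1) → Pt (a + 1) n) :
    (∏ j, (Polynomial.C (A j) + Polynomial.X * Polynomial.C (B j))).coeff 1 =
      ∑ i, B i * ∏ j, A (i.succAbove j) := by
  classical
  have h := Polynomial.coeff_derivative
    (∏ j, (Polynomial.C (A j) + Polynomial.X * Polynomial.C (B j))) 0
  rw [Polynomial.derivative_prod_finset, Nat.cast_zero, zero_add, zero_add, mul_one] at h
  rw [← h, Polynomial.coeff_zero_eq_eval_zero, Polynomial.eval_finsetSum]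
  refine Finset.sum_congr rfl fun i _ => ?_
  have he : (Finset.univ : Finset (Fin (a + 1))).erase i = Finset.univ.image i.succAbove := by
    rw [Fin.image_succAbove_univ, Finset.compl_singleton]
  rw [he, Finset.prod_image fun x _ y _ h => Fin.succAbove_right_injective h]
  simp [Polynomial.eval_prod]
  ring

/-- A combination of two `a`-th powers over the points is a product of `a` products of forms. -/
lemma prod_add_pow_mem {p : ℕ} (t : ℂ) (v w : Fin n → ℂ) :
    (∏ j : Fin p, (lin j w ^ a + t • lin j v ^ a)) ∈ powSpan p n 1 ^ a := by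
  rcases Nat.eq_zero_or_pos a with rfl | ha
  · simp only [pow_zero]
    exact Submodule.mem_one.2 ⟨(1 + t) ^ p, by
      simp [Finset.prod_const, Algebra.smul_def]⟩
  obtain ⟨z, hz⟩ := IsAlgClosed.exists_pow_nat_eq (-t) ha
  have hζ := Complex.isPrimitiveRoot_exp a ha.ne'
  generalize Complex.exp _ = ζ at hζ
  have hζ' := hζ.map_of_injective (f := algebraMap ℂ (Pt p n)) (algebraMap ℂ _).injective
  have key : ∀ j : Fin p, lin j w ^ a + t • lin j v ^ a =
      ∏ r ∈ Finset.range a, lin j (w - (ζ ^ r * z) • v) := by
    intro j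
    have h := congrArg (Polynomial.eval (lin j w))
      (X_pow_sub_C_eq_prod hζ' ha (α := z • lin j v) rfl)
    simp only [Polynomial.eval_sub, Polynomial.eval_pow, Polynomial.eval_X, Polynomial.eval_C,
      Polynomial.eval_prod] at h
    rw [smul_pow, hz, neg_smul, sub_neg_eq_add] at h
    rw [h]
    refine Finset.prod_congr rfl fun r _ => ?_
    rw [map_sub, map_smul, mul_smul, ← map_pow, ← Algebra.smul_def]
  simp only [key]
  rw [Finset.prod_comm]
  have := prod_mem_pow (Finset.range a) (powSpan p n 1)
    (fun r => prodForm (w - (ζ ^ r * z) • v))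
    fun r _ => Submodule.subset_span ⟨_, pow_one _⟩
  rwa [Finset.card_range] at this

/-- A form against at least as many products of one form as there are other points. -/
lemma peel_products_mem (w : Fin n → ℂ) : ∀ (l : ℕ) (x : Fin l → Fin n → ℂ),
    ∀ h ∈ formSpace n (a + l),
      peel h (prodForm w ^ a * ∏ s, prodForm (x s)) ∈ powSpan (a + 1) n 1 ^ (a + l)
  | 0, x, h, hh => by
    simp only [Finset.univ_eq_empty, Finset.prod_empty, mul_one, Nat.add_zero] at hh ⊢
    have hh' := span_range_pow_le lf a hh
    clear hh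
    induction hh' using Submodule.span_induction with
    | mem y hy =>
      obtain ⟨v, rfl⟩ := hy
      have e : peel (lf v ^ a) (prodForm w ^ a : Pt a n) = (∏ j : Fin (a + 1),
          (Polynomial.C (lin j w ^ a) + Polynomial.X * Polynomial.C (lin j v ^ a))).coeff 1 := by
        rw [coeff_one_prod, peel_apply]
        simp [map_pow, atPt_lf, skip_prodForm, Finset.prod_pow]
      rw [e]
      refine coeff_mem_of_eval_mem _ _ (fun t => ?_) 1
      simpa [Polynomial.eval_prod, Algebra.smul_def] using prod_add_pow_mem t v w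
    | zero => simp
    | add y y' _ _ hy hy' =>
      rw [map_add, LinearMap.add_apply]; exact Submodule.add_mem _ hy hy'
    | smul c y _ hy => rw [map_smul, LinearMap.smul_apply]; exact Submodule.smul_mem _ _ hy
  | l + 1, x, h, hh => by
    have hh' := span_range_pow_le lf (a + (l + 1)) hh
    clear hh
    induction hh' using Submodule.span_induction with
    | mem y hy =>
      obtain ⟨v, rfl⟩ := hy
      have e : prodForm w ^ a * ∏ s, prodForm (a := a) (x s) =
          prodForm (x 0) ^ 1 * (prodForm w ^ a * ∏ s : Fin l, prodForm (x s.succ)) := by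
        rw [Fin.prod_univ_succ, pow_one]
        ring
      rw [e]
      have hs := peel_step (k := 1) (m := a + (l + 1)) (by omega) v (x 0)
        (prodForm w ^ a * ∏ s : Fin l, prodForm (a := a) (x s.succ))
      refine Submodule.mul_le.2 (fun p hp q hq => ?_) hs
      obtain ⟨h', hh', rfl⟩ := hq
      rw [show a + (l + 1) - 1 = a + l by omega] at hh'
      rw [← Nat.add_assoc, pow_succ']
      exact Submodule.mul_mem_mul hp (peel_products_mem w l _ h' hh')
    | zero => simp
    | add y y' _ _ hy hy' =>
      rw [map_add, LinearMap.add_apply]; exact Submodule.add_mem _ hy hy'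
    | smul c y _ hy => rw [map_smul, LinearMap.smul_apply]; exact Submodule.smul_mem _ _ hy

/-- The main bound. -/
theorem symImage_le_pow : ∀ (a b : ℕ), (a - 1) ^ 2 ≤ b →
    symImage a n b ≤ powSpan a n 1 ^ b
  | 0, b, _ => by
    rw [symImage_zero]
    exact le_of_eq_of_le (one_pow b).symm (pow_le_pow_left' (one_le_powSpan n 1) b)
  | a + 1, b, hb => by
    rw [Nat.add_sub_cancel, pow_two] at hb
    refine symImage_succ_le _ fun u g hg => ?_
    have hab : a ≤ b := le_trans (Nat.le_mul_self a) hb
    have hrec : (a - 1) ^ 2 ≤ b - a := by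
      rcases a with _ | c
      · exact Nat.zero_le _
      · simp only [Nat.add_sub_cancel]
        have : c ^ 2 + (c + 1) ≤ (c + 1) * (c + 1) := by nlinarith
        omega
    have hlu : lf u ^ b ∈ formSpace n (a + (b - a)) := by
      rw [Nat.add_sub_cancel' hab]
      exact Submodule.pow_mem_pow (Submodule.span ℂ (Set.range (lf (n := n))))
        (Submodule.subset_span ⟨u, rfl⟩) b
    have hle : powSpan a n a * powSpan a n 1 ^ (b - a) ≤ Submodule.comap (peel (lf u ^ b))
        (powSpan (a + 1) n 1 ^ b) := by
      rw [powSpan, powSpan, Submodule.span_pow, Submodule.span_mul_span, Submodule.span_le]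
      rintro _ ⟨_, ⟨w, rfl⟩, q, hq, rfl⟩
      obtain ⟨f, rfl⟩ := Set.mem_pow.1 hq
      choose x hx using fun s => (f s).2
      have hq' : (List.ofFn fun s => ((f s : Pt a n))).prod = ∏ s, prodForm (x s) := by
        rw [List.prod_ofFn]
        exact Finset.prod_congr rfl fun s _ => (hx s).symm.trans (pow_one _)
      rw [SetLike.mem_coe, Submodule.mem_comap, hq']
      have := peel_products_mem w (b - a) x _ hlu
      rwa [Nat.add_sub_cancel' hab] at this
    exact hle (mul_le_mul_right (symImage_le_pow a (b - a) hrec) _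
      (symImage_le_powSpan a a b hb hg))

/-- Symmetric polynomials of degree `b ≥ (a - 1)^2` at each of `a` points. -/
theorem mem_elemSpan_pow {b : ℕ} (hb : (a - 1) ^ 2 ≤ b) {f : Pt a n}
    (hsym : ∀ σ : Equiv.Perm (Fin a), rename (Prod.map σ id) f = f)
    (hdeg : ∀ α ∈ f.support, ∀ j, ∑ k, α (j, k) = b) : f ∈ elemSpan a n ^ b := by
  have hc : symm a n f = (Fintype.card (Equiv.Perm (Fin a)) : ℂ) • f := by
    rw [symm_apply, Finset.sum_congr rfl fun σ _ => hsym σ, Finset.sum_const, Finset.card_univ,
      Nat.cast_smul_eq_nsmul]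
  have hne : (Fintype.card (Equiv.Perm (Fin a)) : ℂ) ≠ 0 :=
    Nat.cast_ne_zero.2 Fintype.card_ne_zero
  refine (Submodule.smul_mem_iff _ hne).1 (hc ▸ ?_)
  have hle : powSpan a n 1 ≤ elemSpan a n := by
    rw [powSpan, Submodule.span_le]
    rintro _ ⟨v, rfl⟩
    simpa using prodForm_mem v
  exact pow_le_pow_left' hle b
    (symImage_le_pow a b hb (Submodule.mem_map_of_mem (mem_degSpace hdeg)))

end

end Vale.Agent.P181.Poly
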